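import Vale.Agent.P270.H766.GB.Iface
import Vale.Agent.P285.H766.PB.NullSec
import Vale.Agent.P285.H766.PB.LB
import Vale.Agent.P285.H281.FD.Final

/-!
# P270 on projective bundles: `Sem2 → GabEff`
-/

open scoped Manifold ContDiff Topology ComplexOrder
open Filter Set MeasureTheory
open Vale.Agent.P272.K Vale.Agent.P284.H248
open Vale.Agent.P285 (TM.mul TM.pow TM.can TM.Wt)
open Vale.Agent.P285.H281.FD
open Vale.Agent.P285.H281.M (Trf)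
open Vale.Agent.P285.H766.PB (isLB_mul isLB_pow nz_iff freq_nz)
open Vale.Agent.P270.H766.GB

set_option linter.all false

noncomputable section

namespace Vale.Agent.P270.H324.GB

section
variable {n : ℕ} {X : Type} [TopologicalSpace X] [ChartedSpace (Cm n) X]

lemma isSec_pow {D : Bd X} {s : D.ι → X → ℂ} (hs : IsSec n D s) (k : ℕ) :
    IsSec n (D.pow k) (fun i x => s i x ^ k) where
  holo i e x he hx := (hs.holo i e x he hx).pow k
  change i j x hi hj := by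
    show s i x ^ k = D.g i j x ^ k * s j x ^ k
    rw [hs.change i j x hi hj, mul_pow]

lemma nz_ev {D : Bd X} (hD : IsLB n D) {s : D.ι → X → ℂ} (hs : IsSec n D s) {x : X}
    (hx : NZ D s x) : ∀ᶠ y in 𝓝 x, NZ D s y := by
  obtain ⟨i, hi⟩ := hD.cover x
  have he := Vale.Agent.P285.H766.PB.at_chart (n := n) x
  set e := chartAt (Cm n) x
  have h1 : ContinuousAt (fun z => s i (e.symm z)) (e x) := (hs.holo i e x he hi).continuousAt
  have h2 : ContinuousAt (fun y => s i (e.symm (e y))) x :=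
    ContinuousAt.comp (g := fun z => s i (e.symm z)) h1 (e.continuousAt he.2)
  have h3 : s i (e.symm (e x)) ≠ 0 := by
    rw [e.left_inv he.2]; exact (nz_iff hD hs hi).1 hx
  filter_upwards [h2.eventually_ne h3, e.open_source.mem_nhds he.2, (hD.isOpen i).mem_nhds hi]
    with y hy hy1 hy2
  rw [e.left_inv hy1] at hy
  exact (nz_iff hD hs hy2).2 hy

lemma klt_pow {D : Bd X} {s : D.ι → X → ℂ} {m : ℕ} (hm : 1 ≤ m) (hk : Klt n m D s) :
    ∃ p : ℕ, 1 ≤ p ∧ Klt n (m * p) (D.pow (p + 1)) (fun i x => s i x ^ (p + 1)) := by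
  obtain ⟨c, hc, hi⟩ := hk
  have hm0 : (0 : ℝ) < m := by exact_mod_cast hm
  have h1 : 0 < c * m - 1 := by
    rw [div_lt_iff₀ hm0] at hc; linarith
  obtain ⟨p, hp⟩ := exists_nat_gt (1 / (c * m - 1))
  have hp0 : (0 : ℝ) < p := lt_trans (by positivity) hp
  have hp1 : 1 ≤ p := by exact_mod_cast hp0
  refine ⟨p, hp1, c / (p + 1 : ℕ), ?_, ?_⟩
  · have h2 : (0 : ℝ) < ((p + 1 : ℕ) : ℝ) := by positivity
    rw [div_lt_div_iff₀ (by push_cast; positivity) h2]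
    push_cast
    rw [div_lt_iff₀ h1] at hp
    nlinarith
  · intro i e x he hx
    obtain ⟨V, hV, hVi⟩ := hi i e x he hx
    refine ⟨V, hV, ?_⟩
    have h2 : (fun z => ‖(s i (e.symm z)) ^ (p + 1)‖ ^ (-(2 * (c / ((p + 1 : ℕ) : ℝ))))) =
        fun z => ‖s i (e.symm z)‖ ^ (-(2 * c)) := by
      funext z
      have h3 : ((p + 1 : ℕ) : ℝ) ≠ 0 := by positivity
      rw [norm_pow, ← Real.rpow_natCast, ← Real.rpow_mul (norm_nonneg _)]
      congr 1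
      field_simp
    show IntegrableOn (fun z => ‖(s i (e.symm z)) ^ (p + 1)‖ ^ (-(2 * (c / ((p + 1 : ℕ) : ℝ))))) V
    rw [h2]; exact hVi

end

section
variable {n : ℕ} {X : Type} [TopologicalSpace X] [T2Space X] [CompactSpace X] [ConnectedSpace X]
  [ChartedSpace (Cm n) X] [IsManifold 𝓘(ℂ, Cm n) ω X]
  {w : Chart n X → Cm n → Matrix (Fin n) (Fin n) ℂ}

/-- `K + t Δ` is nef for some `t > 1` -/
theorem klt_tnef (hn : 1 ≤ n) (hw : IsKahler w) (hR : NonposHSC w) {D : Bd X} (hD : IsLB n D)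
    {s : D.ι → X → ℂ} (hs : IsSec n D s) (h0 : ∃ x, NZ D s x) {m : ℕ} (hm : 1 ≤ m)
    (hk : Klt n m D s) : ∃ p p' : ℕ, 1 ≤ p ∧ p < p' ∧
      Vale.Agent.P285.H281.FD.Nef w (((Bd.can n X).pow (m * p)).mul (D.pow p')) := by
  obtain ⟨p, hp, hk'⟩ := klt_pow hm hk
  refine ⟨p, p + 1, hp, Nat.lt_succ_self p, ?_⟩
  obtain ⟨x, hx⟩ := h0
  exact (klt_face hn (Vale.Agent.P285.H591.KN.gptStmt n X) hw hR (isLB_pow hD (p + 1))
    (isSec_pow hs (p + 1)) ⟨x, fun i hi => pow_ne_zero _ (hx i hi)⟩ (Nat.mul_pos hm hp) hk').1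

end

/-- **GE** -/
theorem ge (hS : Sem2) : GabEff := by
  intro n hn X _ _ _ _ _ _ w hw hR D hD s hs h0 m hm hk L hL hNL c C k hk1 u hu hu0 x y hx hy
  obtain ⟨p, p', hp, hpp, hN⟩ := klt_tnef hn hw hR hD hs h0 hm hk
  have hp'1 : 1 ≤ p' := hp.trans hpp.le
  let L₁ : LineBundle n X := TM.mul (TM.pow (TM.can n X) (m * p)) (TM.pow hD.lb p')
  let T₁ : Br (((Bd.can n X).pow (m * p)).mul (D.pow p')) L₁ :=
    (Br.can.pow (m * p)).mul ((Br.id hD).pow p')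
  have hL₁ : Vale.Agent.P285.TM.Nef w L₁ := T₁.nef' hN
  have hL₂ : Vale.Agent.P285.TM.Nef w hL.lb := (Br.id hL).nef' hNL
  obtain ⟨N, hN1, hτ⟩ := Vale.Agent.P285.H281.M.semiampleK hn hw (Or.inl hR)
  -- a common point
  have hEu : IsLB n (((Bd.can n X).pow c).mul ((D.pow C).mul (L.pow k))) :=
    isLB_mul (isLB_pow Vale.Agent.P285.H766.PB.isLB_can c) (isLB_mul (isLB_pow hD C) (isLB_pow hL k))
  obtain ⟨x₁, hx₁⟩ := hu0
  obtain ⟨x₀, hx₀s, hx₀u⟩ := ((freq_nz hD hs h0 x₁).and_eventually (nz_ev hEu hu hx₁)).exists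
  obtain ⟨τ, hτ0⟩ := hτ x₀
  -- sections of `L₁`
  let σ₁ : Sec L₁ N :=
    { f := fun i z => τ.f i.1 z ^ (m * p) * s i.2 z ^ (N * p')
      holo := fun i e z he hz => ((τ.holo i.1 e z he hz.1).pow _).mul ((hs.holo i.2 e z he hz.2).pow _)
      change := fun i j z hi hj => by
        show _ = ((TM.can n X).g i.1 j.1 z ^ (m * p) * D.g i.2 j.2 z ^ p') ^ N * _
        rw [τ.change i.1 j.1 z hi.1 hj.1, hs.change i.2 j.2 z hi.2 hj.2]
        ring }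
  have hσ₁ : ∃ m', 1 ≤ m' ∧ ∃ (s' : Sec L₁ m') (z : X), Vale.Agent.P285.TM.Sec.NZ s' z :=
    ⟨N, hN1, σ₁, x₀, fun i hi =>
      mul_ne_zero (pow_ne_zero _ (hτ0 i.1 hi.1)) (pow_ne_zero _ (hx₀s i.2 hi.2))⟩
  -- the second effectivity
  obtain ⟨k', rfl⟩ : ∃ k', k = k' + 1 := ⟨k - 1, by omega⟩
  obtain ⟨q', rfl⟩ : ∃ q', p' = q' + 1 := ⟨p' - 1, by omega⟩
  let E : LineBundle n X := TM.mul (TM.pow (TM.can n X) c) (TM.pow (lb2 L₁ hL.lb C 1) 1)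
  let σ₂ : Sec E ((k' + 1) * N) :=
    { f := fun i z => u (i.1.1, (i.2.1.2, i.2.2)) z ^ N * τ.f i.1 z ^ (c * k') *
        τ.f i.2.1.1 z ^ (m * p * C * (k' + 1)) * s i.2.1.2 z ^ (N * C * (q' * (k' + 1) + k'))
      holo := fun i e z he hz => ((((hu.holo (i.1.1, (i.2.1.2, i.2.2)) e z he
        ⟨⟨i.1.2, hz.1⟩, hz.2.1.2, hz.2.2⟩).pow _).mul ((τ.holo i.1 e z he hz.1).pow _)).mul
        ((τ.holo i.2.1.1 e z he hz.2.1.1).pow _)).mul ((hs.holo i.2.1.2 e z he hz.2.1.2).pow _)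
      change := fun i j z hi hj => by
        have h1 := hu.change (i.1.1, (i.2.1.2, i.2.2)) (j.1.1, (j.2.1.2, j.2.2)) z
          ⟨⟨i.1.2, hi.1⟩, hi.2.1.2, hi.2.2⟩ ⟨⟨j.1.2, hj.1⟩, hj.2.1.2, hj.2.2⟩
        have h2 : (((Bd.can n X).pow c).mul ((D.pow C).mul (L.pow (k' + 1)))).g
            (i.1.1, (i.2.1.2, i.2.2)) (j.1.1, (j.2.1.2, j.2.2)) z =
            (TM.can n X).g i.1 j.1 z ^ c * (D.g i.2.1.2 j.2.1.2 z ^ C *
              L.g i.2.2 j.2.2 z ^ (k' + 1)) := rfl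
        rw [h2] at h1
        have h3 : E.g i j z = (TM.can n X).g i.1 j.1 z ^ c *
            ((((TM.can n X).g i.2.1.1 j.2.1.1 z ^ (m * p) * D.g i.2.1.2 j.2.1.2 z ^ (q' + 1)) ^ C *
              L.g i.2.2 j.2.2 z ^ 1) ^ 1) := rfl
        rw [h3, h1, τ.change i.1 j.1 z hi.1 hj.1, τ.change i.2.1.1 j.2.1.1 z hi.2.1.1 hj.2.1.1,
          hs.change i.2.1.2 j.2.1.2 z hi.2.1.2 hj.2.1.2]
        generalize (TM.can n X).g i.1 j.1 z = A1
        generalize (TM.can n X).g i.2.1.1 j.2.1.1 z = A2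
        generalize D.g i.2.1.2 j.2.1.2 z = A3
        generalize L.g i.2.2 j.2.2 z = A4
        ring }
  have hσ₂ : ∃ c' C' m', 1 ≤ m' ∧ ∃ (s' : Sec (TM.mul (TM.pow (TM.can n X) c')
      (TM.pow (lb2 L₁ hL.lb C' 1) 1)) m') (z : X), Vale.Agent.P285.TM.Sec.NZ s' z := by
    refine ⟨c, C, (k' + 1) * N, Nat.mul_pos (Nat.succ_pos _) hN1, σ₂, x₀, fun i hi => ?_⟩
    refine mul_ne_zero (mul_ne_zero (mul_ne_zero (pow_ne_zero _ ?_) (pow_ne_zero _ ?_))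
      (pow_ne_zero _ ?_)) (pow_ne_zero _ ?_)
    · exact hx₀u (i.1.1, (i.2.1.2, i.2.2)) ⟨⟨i.1.2, hi.1⟩, hi.2.1.2, hi.2.2⟩
    · exact hτ0 _ hi.1
    · exact hτ0 _ hi.2.1.1
    · exact hx₀s _ hi.2.1.2
  have key := hS n hn X w hw hR L₁ hL.lb hL₁ hL₂ hσ₁ hσ₂ (x * m * (q' + 1 - p)) x ((q' + 1) * y)
    (Nat.mul_pos (Nat.mul_pos hx hm) (by omega)) hx (Nat.mul_pos hp'1 hy)
  -- transfer
  let T : Br (((Bd.can n X).pow (x * m)).mul ((D.pow x).mul (L.pow y)))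
      (TM.mul (TM.pow (TM.can n X) (x * m)) (TM.mul (TM.pow hD.lb x) (TM.pow hL.lb y))) :=
    (Br.can.pow (x * m)).mul (((Br.id hD).pow x).mul ((Br.id hL).pow y))
  refine T.semiample (Trf.semiample (r := q' + 1) ?_ hp'1 key)
  refine ⟨fun i => (i.1, ((i.1, i.2.1), i.2.2)), fun j z hz => ⟨hz.1, ⟨hz.1, hz.2.1⟩, hz.2.2⟩, ?_⟩
  intro i j z hi hj
  show (TM.can n X).g i.1 j.1 z ^ (x * m * (q' + 1 - p)) *
      ((((TM.can n X).g i.1 j.1 z ^ (m * p) * D.g i.2.1 j.2.1 z ^ (q' + 1)) ^ x *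
        L.g i.2.2 j.2.2 z ^ ((q' + 1) * y)) ^ 1) =
    ((TM.can n X).g i.1 j.1 z ^ (x * m) * (D.g i.2.1 j.2.1 z ^ x * L.g i.2.2 j.2.2 z ^ y)) ^ (q' + 1)
  obtain ⟨d, hd⟩ : ∃ d, q' + 1 = p + d := ⟨q' + 1 - p, by omega⟩
  rw [hd, Nat.add_sub_cancel_left]
  ring

end Vale.Agent.P270.H324.GB
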